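import Vale.Agent.P328.RMDefs

/-!
# The Diaconis–Gangolli chain on contingency tables: definitions
-/

namespace Vale.Agent.P328.H659

open Finset Vale.Agent.P328.RM

variable {m n : ℕ}

/-- `Y` arises from `X` by adding one to the entries `(i, j)`, `(i', k)` and subtracting one from
the entries `(i, k)`, `(i', j)`; here `i ≠ i'` and `j ≠ k` -/
def IsMove (i i' : Fin m) (j k : Fin n) (X Y : Fin m → Fin n → ℕ) : Prop :=
  i ≠ i' ∧ j ≠ k ∧ Y i j = X i j + 1 ∧ Y i' k = X i' k + 1 ∧ X i k = Y i k + 1 ∧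
    X i' j = Y i' j + 1 ∧ SameOff i i' j k X Y

open scoped Classical in
/-- one step of the Diaconis–Gangolli chain: rows `i, i'` and columns `j, k` are chosen
independently and uniformly; the entries `(i, j)`, `(i', k)` are increased and the entries
`(i, k)`, `(i', j)` are decreased by one, if this is possible (`i ≠ i'`, `j ≠ k` and no entry gets
negative); otherwise the table is not changed -/
noncomputable def dgStep (r : Fin m → ℕ) (c : Fin n → ℕ) : Matrix (Omega r c) (Omega r c) ℝ :=
  fun X Y => 1 / ((m : ℝ) ^ 2 * (n : ℝ) ^ 2) * ∑ i : Fin m, ∑ i' : Fin m, ∑ j : Fin n, ∑ k : Fin n,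
    if IsMove i i' j k X.1 Y.1 ∨ (Y = X ∧ ∀ Z : Omega r c, ¬ IsMove i i' j k X.1 Z.1)
      then 1 else 0

/-- the lazy version: with probability `1 / 2` nothing is done -/
noncomputable def lazyStep (r : Fin m → ℕ) (c : Fin n → ℕ) : Matrix (Omega r c) (Omega r c) ℝ :=
  (1 / 2 : ℝ) • (1 + dgStep r c)

/-- the worst spectral gap for margins at most `D` -/
noncomputable def dgGap (m n D : ℕ) : ℝ :=
  4 * (1 - Real.cos (Real.pi / (D + 1))) / ((m : ℝ) ^ 2 * (n : ℝ) ^ 2)

end Vale.Agent.P328.H659
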