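import Mathlib

/-!
# The sharp Poincaré (discrete Wirtinger) inequality on a path
-/

namespace Vale.Agent.P328.H659

open Finset Real

theorem sum_shift (L : ℕ) (h : ℕ → ℝ) (h0 : h 0 = 0) (h1 : h L = 0) :
    ∑ z ∈ range L, h (z + 1) = ∑ z ∈ range L, h z := by
  have e1 := Finset.sum_range_succ h L
  have e2 := Finset.sum_range_succ' h L
  rw [h1] at e1
  rw [h0] at e2
  linarith

/-- Dirichlet boundary conditions: sharp constant. -/
theorem dirichlet_path (L : ℕ) (hL : 1 ≤ L) (G : ℕ → ℝ) (h0 : G 0 = 0) (h1 : G L = 0) :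
    2 * (1 - cos (π / L)) * ∑ z ∈ range L, G z ^ 2 ≤
      ∑ z ∈ range L, (G (z + 1) - G z) ^ 2 := by
  have hL0 : (0 : ℝ) < L := by exact_mod_cast hL
  set θ : ℝ := π / L with hθ
  have hθL : θ * L = π := by rw [hθ]; field_simp
  have hθ0 : 0 < θ := by rw [hθ]; positivity
  have hpos : ∀ z : ℕ, 0 < z → z < L → 0 < sin (θ * z) := by
    intro z hz hzL
    apply sin_pos_of_pos_of_lt_pi
    · have : (0 : ℝ) < z := by exact_mod_cast hz
      positivity
    · rw [← hθL]
      have : (z : ℝ) < L := by exact_mod_cast hzL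
      exact mul_lt_mul_of_pos_left this hθ0
  -- the ground state inequality
  have key : ∀ z ∈ range L, 2 * (G z * G (z + 1)) ≤
      G z ^ 2 * (sin (θ * ((z : ℝ) + 1)) / sin (θ * z)) +
        G (z + 1) ^ 2 * (sin (θ * (((z + 1 : ℕ) : ℝ) - 1)) / sin (θ * ((z + 1 : ℕ) : ℝ))) := by
    intro z hz
    have hzL := Finset.mem_range.1 hz
    have e : θ * (((z + 1 : ℕ) : ℝ) - 1) = θ * z := by push_cast; ring
    have e' : θ * ((z + 1 : ℕ) : ℝ) = θ * ((z : ℝ) + 1) := by push_cast; ring
    rw [e, e']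
    rcases Nat.eq_zero_or_pos z with rfl | hz0
    · simp [h0]
    · rcases Nat.lt_or_ge (z + 1) L with hlt | hge
      · have ha := hpos z hz0 hzL
        have hb := hpos (z + 1) (Nat.succ_pos z) hlt
        rw [e'] at hb
        set a := sin (θ * z)
        set b := sin (θ * ((z : ℝ) + 1))
        have : G z ^ 2 * (b / a) + G (z + 1) ^ 2 * (a / b) - 2 * (G z * G (z + 1)) =
            (G z * b - G (z + 1) * a) ^ 2 / (a * b) := by
          field_simp
          ring
        have h2 : 0 ≤ (G z * b - G (z + 1) * a) ^ 2 / (a * b) := by positivity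
        linarith
      · have hE : z + 1 = L := by omega
        have hs : sin (θ * ((z : ℝ) + 1)) = 0 := by
          have : ((z : ℝ) + 1) = L := by rw [← hE]; push_cast; ring
          rw [this, hθL, sin_pi]
        rw [hE, h1, hs]
        simp
  have hsum := Finset.sum_le_sum key
  rw [Finset.sum_add_distrib] at hsum
  rw [sum_shift L (fun z => G z ^ 2 * (sin (θ * ((z : ℝ) - 1)) / sin (θ * (z : ℝ))))
    (by simp [h0]) (by simp [h1]), ← Finset.sum_add_distrib] at hsum
  have hpt : ∀ z ∈ range L, G z ^ 2 * (sin (θ * ((z : ℝ) + 1)) / sin (θ * z)) +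
      G z ^ 2 * (sin (θ * ((z : ℝ) - 1)) / sin (θ * (z : ℝ))) = 2 * cos θ * G z ^ 2 := by
    intro z hz
    rcases Nat.eq_zero_or_pos z with rfl | hz0
    · simp [h0]
    · have ha := hpos z hz0 (Finset.mem_range.1 hz)
      have e1 : sin (θ * ((z : ℝ) + 1)) = sin (θ * z) * cos θ + cos (θ * z) * sin θ := by
        rw [mul_add, mul_one, sin_add]
      have e2 : sin (θ * ((z : ℝ) - 1)) = sin (θ * z) * cos θ - cos (θ * z) * sin θ := by
        rw [mul_sub, mul_one, sin_sub]
      rw [e1, e2]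
      field_simp
      ring
  rw [Finset.sum_congr rfl hpt, ← Finset.mul_sum, ← Finset.mul_sum] at hsum
  have hexp : ∑ z ∈ range L, (G (z + 1) - G z) ^ 2 =
      2 * ∑ z ∈ range L, G z ^ 2 - 2 * ∑ z ∈ range L, G z * G (z + 1) := by
    have h2 := sum_shift L (fun z => G z ^ 2) (by simp [h0]) (by simp [h1])
    have : ∑ z ∈ range L, (G (z + 1) - G z) ^ 2 = ∑ z ∈ range L, G (z + 1) ^ 2 +
        ∑ z ∈ range L, G z ^ 2 - 2 * ∑ z ∈ range L, G z * G (z + 1) := by
      rw [Finset.mul_sum, ← Finset.sum_add_distrib, ← Finset.sum_sub_distrib]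
      exact Finset.sum_congr rfl fun z _ => by ring
    rw [this, h2]
    ring
  rw [hexp]
  linarith

theorem sum_by_parts (u G : ℕ → ℝ) (n : ℕ) :
    ∑ t ∈ range (n + 1), u t * (G (t + 1) - G t) =
      u n * G (n + 1) - u 0 * G 0 - ∑ t ∈ range n, (u (t + 1) - u t) * G (t + 1) := by
  induction n with
  | zero => simp; ring
  | succ n ih =>
    rw [Finset.sum_range_succ, ih, Finset.sum_range_succ (fun t => (u (t + 1) - u t) * G (t + 1))]
    ring

/-- The sharp Poincaré inequality on a path with `L` points. -/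
theorem poincare_path (L : ℕ) (f : ℕ → ℝ) (μ : ℝ) (hμ : ∑ t ∈ range L, (f t - μ) = 0) :
    2 * (1 - cos (π / L)) * ∑ t ∈ range L, (f t - μ) ^ 2 ≤
      ∑ t ∈ range (L - 1), (f (t + 1) - f t) ^ 2 := by
  rcases L with _ | n
  · simp
  · rw [Nat.add_sub_cancel]
    set G : ℕ → ℝ := fun z => ∑ t ∈ range z, (f t - μ) with hG
    have h0 : G 0 = 0 := by simp [hG]
    have h1 : G (n + 1) = 0 := hμ
    have hd : ∀ t, G (t + 1) - G t = f t - μ := by
      intro t
      simp only [hG, Finset.sum_range_succ]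
      ring
    have hD := dirichlet_path (n + 1) (by omega) G h0 h1
    simp only [hd] at hD
    set lam : ℝ := 2 * (1 - cos (π / (n + 1 : ℕ))) with hlam
    have hlam0 : 0 ≤ lam := by
      have := cos_le_one (π / ((n + 1 : ℕ) : ℝ))
      rw [hlam]; linarith
    set S := ∑ t ∈ range (n + 1), (f t - μ) ^ 2 with hS
    have hS0 : 0 ≤ S := Finset.sum_nonneg fun _ _ => sq_nonneg _
    have hparts := sum_by_parts (fun t => f t - μ) G n
    have hS1 : S = -∑ t ∈ range n, (f (t + 1) - f t) * G (t + 1) := by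
      have e1 : S = ∑ t ∈ range (n + 1), (f t - μ) * (G (t + 1) - G t) :=
        Finset.sum_congr rfl fun t _ => by rw [hd]; ring
      rw [e1, hparts, h0, h1]
      have e2 : ∀ t, f (t + 1) - μ - (f t - μ) = f (t + 1) - f t := fun t => by ring
      simp only [e2]
      ring
    have hcs : S ^ 2 ≤ (∑ t ∈ range n, (f (t + 1) - f t) ^ 2) *
        ∑ t ∈ range n, G (t + 1) ^ 2 := by
      rw [hS1, neg_sq]
      exact Finset.sum_mul_sq_le_sq_mul_sq _ _ _
    have hB : ∑ t ∈ range n, G (t + 1) ^ 2 = ∑ z ∈ range (n + 1), G z ^ 2 := by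
      rw [Finset.sum_range_succ' (fun z => G z ^ 2)]
      simp [h0]
    rw [hB] at hcs
    set A := ∑ t ∈ range n, (f (t + 1) - f t) ^ 2 with hA
    set B := ∑ z ∈ range (n + 1), G z ^ 2 with hBd
    have hA0 : 0 ≤ A := Finset.sum_nonneg fun _ _ => sq_nonneg _
    rcases hS0.eq_or_lt with hz | hpos
    · rw [← hz, mul_zero]; exact hA0
    · have h3 : lam * S ^ 2 ≤ A * S := by
        calc lam * S ^ 2 ≤ lam * (A * B) := mul_le_mul_of_nonneg_left hcs hlam0
          _ = A * (lam * B) := by ring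
          _ ≤ A * S := mul_le_mul_of_nonneg_left hD hA0
      have h4 : (lam * S) * S ≤ A * S := by nlinarith [h3]
      exact le_of_mul_le_mul_right h4 hpos

/-- The same with the constant of a longer path. -/
theorem poincare_path_le {L D : ℕ} (hL : 1 ≤ L) (hLD : L ≤ D + 1) (f : ℕ → ℝ) (μ : ℝ)
    (hμ : ∑ t ∈ range L, (f t - μ) = 0) :
    2 * (1 - cos (π / (D + 1))) * ∑ t ∈ range L, (f t - μ) ^ 2 ≤
      ∑ t ∈ range (L - 1), (f (t + 1) - f t) ^ 2 := by
  refine le_trans ?_ (poincare_path L f μ hμ)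
  apply mul_le_mul_of_nonneg_right _ (Finset.sum_nonneg fun _ _ => sq_nonneg _)
  have hL0 : (0 : ℝ) < L := by exact_mod_cast hL
  have hL1 : (1 : ℝ) ≤ L := by exact_mod_cast hL
  have hLD' : (L : ℝ) ≤ D + 1 := by exact_mod_cast hLD
  have : cos (π / L) ≤ cos (π / (D + 1)) := by
    apply cos_le_cos_of_nonneg_of_le_pi
    · positivity
    · exact div_le_self pi_pos.le hL1
    · exact div_le_div_of_nonneg_left pi_pos.le hL0 hLD'
  linarith

end Vale.Agent.P328.H659
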