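import Vale.Agent.P328.Bdl.B1
import Vale.Agent.P328.H659.Path
import Vale.Agent.P328.H659.Defs

/-!
# Comparison of one box: heat bath against `± 1` moves
-/

set_option linter.all false

namespace Vale.Agent.P328.H659

open Finset Matrix Vale.Agent.P328 Vale.Agent.P328.Alg

section General

variable {Ω : Type*} [Fintype Ω] [DecidableEq Ω]

theorem sum_avgKer (s : Setoid Ω) (G : Ω → ℝ) : ∑ x, (avgKer s *ᵥ G) x = ∑ x, G x := by
  simp only [mulVec, dotProduct]
  rw [Finset.sum_comm]
  refine Finset.sum_congr rfl fun y _ => ?_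
  rw [← Finset.sum_mul]
  have : ∑ i, avgKer s i y = 1 := by
    rw [← avgKer_row s y]
    refine Finset.sum_congr rfl fun i _ => ?_
    conv_lhs => rw [← avgKer_symm]
    rfl
  rw [this, one_mul]

/-- from classes to the whole space -/
theorem sum_le_of_class (s : Setoid Ω) (G h : Ω → ℝ) {lam : ℝ}
    (H : ∀ x, lam * ∑ y ∈ cls s x, G y ≤ ∑ y ∈ cls s x, h y) :
    lam * ∑ x, G x ≤ ∑ x, h x := by
  rw [← sum_avgKer s G, ← sum_avgKer s h, Finset.mul_sum]
  refine Finset.sum_le_sum fun x _ => ?_
  rw [avgKer_mulVec, avgKer_mulVec]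
  have hc := card_class_pos s x
  rw [← mul_div_assoc]
  exact div_le_div_of_nonneg_right (H x) hc.le

end General

section Tables

variable {m n : ℕ} {r : Fin m → ℕ} {c : Fin n → ℕ}

theorem IsMove.unique {i i' : Fin m} {j k : Fin n} {X Y Y' : Fin m → Fin n → ℕ}
    (h : IsMove i i' j k X Y) (h' : IsMove i i' j k X Y') : Y = Y' := by
  obtain ⟨hi, hj, a1, a2, a3, a4, a5⟩ := h
  obtain ⟨-, -, b1, b2, b3, b4, b5⟩ := h'
  funext a b
  by_cases hab : (a = i ∨ a = i') ∧ (b = j ∨ b = k)
  · obtain ⟨rfl | rfl, rfl | rfl⟩ := hab <;> omega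
  · rw [← a5 a b hab, ← b5 a b hab]

theorem IsMove.swap {i i' : Fin m} {j k : Fin n} {X Y : Fin m → Fin n → ℕ}
    (h : IsMove i i' j k X Y) : IsMove i' i j k Y X := by
  obtain ⟨hi, hj, a1, a2, a3, a4, a5⟩ := h
  exact ⟨hi.symm, hj, a4, a3, a2, a1, fun a b hab => (a5 a b (by tauto)).symm⟩

theorem isMove_swap_iff {i i' : Fin m} {j k : Fin n} {X Y : Fin m → Fin n → ℕ} :
    IsMove i i' j k X Y ↔ IsMove i' i j k Y X := ⟨IsMove.swap, IsMove.swap⟩

theorem not_isMove_self {i i' : Fin m} {j k : Fin n} {X : Fin m → Fin n → ℕ} :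
    ¬ IsMove i i' j k X X := by
  rintro ⟨-, -, a1, -⟩
  omega

/-- the parametrization of a class -/
noncomputable def par (X : Tables r c) (i i' : Fin m) (j k : Fin n) (t : ℕ) : Tables r c :=
  if ht : t < cntX X.1 i i' j k then upT X i i' j k t ht else X

theorem cls_eq_image (X : Tables r c) (i i' : Fin m) (j k : Fin n) :
    cls (boxSetoid r c i i' j k) X =
      (range (cntX X.1 i i' j k)).image (par X i i' j k) := by
  ext Y
  rw [mem_cls, Finset.mem_image]
  constructor
  · intro h
    obtain ⟨t, ht, e⟩ := exists_upT h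
    refine ⟨t, Finset.mem_range.2 ht, ?_⟩
    unfold par
    rw [dif_pos ht, e]
  · rintro ⟨t, ht, rfl⟩
    have ht' := Finset.mem_range.1 ht
    unfold par
    rw [dif_pos ht']
    exact blk_upT X i i' j k t ht'

theorem par_injOn (X : Tables r c) (i i' : Fin m) (j k : Fin n) :
    Set.InjOn (par X i i' j k) (range (cntX X.1 i i' j k)) := by
  intro s hs t ht h
  have hs' := Finset.mem_range.1 (Finset.mem_coe.1 hs)
  have ht' := Finset.mem_range.1 (Finset.mem_coe.1 ht)
  unfold par at h
  rw [dif_pos hs', dif_pos ht'] at h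
  exact upT_injective hs' ht' h

theorem sum_cls (X : Tables r c) (i i' : Fin m) (j k : Fin n) (φ : Tables r c → ℝ) :
    ∑ Y ∈ cls (boxSetoid r c i i' j k) X, φ Y =
      ∑ t ∈ range (cntX X.1 i i' j k), φ (par X i i' j k t) := by
  rw [cls_eq_image, Finset.sum_image (par_injOn X i i' j k)]

theorem isMove_par (X : Tables r c) {i i' : Fin m} {j k : Fin n} (hi : i ≠ i') (hj : j ≠ k)
    {t : ℕ} (ht : t + 1 < cntX X.1 i i' j k) :
    IsMove i i' j k (par X i i' j k t).1 (par X i i' j k (t + 1)).1 := by
  have ht0 : t < cntX X.1 i i' j k := by omega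
  unfold par
  rw [dif_pos ht, dif_pos ht0]
  have hd : ¬ (i = i' ∨ j = k) := by push Not; exact ⟨hi, hj⟩
  have ht' := ht
  rw [cntX_eq, if_neg hd] at ht'
  have hv : ∀ (s : ℕ) (hs : s < cntX X.1 i i' j k) (a : Fin m) (b : Fin n),
      (upT X i i' j k s hs).1 a b = upX X.1 i i' j k s a b := fun _ _ _ _ => rfl
  refine ⟨hi, hj, ?_, ?_, ?_, ?_, ?_⟩
  · rw [hv, hv, upX_eq, upX_eq, if_neg hd, if_neg hd]
    simp only [and_self, if_true]
    omega
  · rw [hv, hv, upX_eq, upX_eq, if_neg hd, if_neg hd]
    simp only [hi.symm, hj.symm, and_self, and_false, and_true, if_false, if_true]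
    omega
  · rw [hv, hv, upX_eq, upX_eq, if_neg hd, if_neg hd]
    simp only [hj.symm, and_self, and_false, if_false, if_true]
    omega
  · rw [hv, hv, upX_eq, upX_eq, if_neg hd, if_neg hd]
    simp only [hi.symm, and_self, false_and, if_false, if_true]
    omega
  · intro a b hab
    rw [← blk_upT X i i' j k t ht0 a b hab, ← blk_upT X i i' j k (t + 1) ht a b hab]

theorem cntX_le_of (X : Tables r c) {D : ℕ} (hD : (∀ i, r i ≤ D) ∨ ∀ j, c j ≤ D)
    (i i' : Fin m) (j k : Fin n) : cntX X.1 i i' j k ≤ D + 1 := by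
  rw [cntX_eq]
  split_ifs with h
  · omega
  · push Not at h
    have h1 : X.1 i j + X.1 i k ≤ r i := by
      rw [← X.2.1 i]
      have := Finset.sum_le_sum_of_subset (f := fun j => X.1 i j) (Finset.subset_univ {j, k})
      rwa [Finset.sum_pair h.2] at this
    have h2 : X.1 i j + X.1 i' j ≤ c j := by
      rw [← X.2.2 j]
      have := Finset.sum_le_sum_of_subset (f := fun i => X.1 i j) (Finset.subset_univ {i, i'})
      rwa [Finset.sum_pair h.1] at this
    rcases hD with hD | hD
    · have := hD i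
      omega
    · have := hD j
      omega

open scoped Classical in
/-- energy of the moves of one box -/
noncomputable def moveForm (F : Tables r c → ℝ) (i i' : Fin m) (j k : Fin n) (X : Tables r c) : ℝ :=
  ∑ Y : Tables r c, if IsMove i i' j k X.1 Y.1 then (F X - F Y) ^ 2 else 0

theorem moveForm_nonneg (F : Tables r c → ℝ) (i i' : Fin m) (j k : Fin n) (X : Tables r c) :
    0 ≤ moveForm F i i' j k X := by
  classical
  exact Finset.sum_nonneg fun Y _ => by split_ifs <;> positivity

theorem le_moveForm (F : Tables r c → ℝ) {i i' : Fin m} {j k : Fin n} {X Y : Tables r c}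
    (h : IsMove i i' j k X.1 Y.1) : (F X - F Y) ^ 2 ≤ moveForm F i i' j k X := by
  classical
  have := Finset.single_le_sum
    (f := fun Y : Tables r c => if IsMove i i' j k X.1 Y.1 then (F X - F Y) ^ 2 else 0)
    (fun Y _ => by split_ifs <;> positivity) (Finset.mem_univ Y)
  simp only [if_pos h] at this
  exact this

/-- **One box.** -/
theorem box_le {D : ℕ} (hD : (∀ i, r i ≤ D) ∨ ∀ j, c j ≤ D) (F : Tables r c → ℝ)
    (i i' : Fin m) (j k : Fin n) :
    2 * (1 - Real.cos (Real.pi / (D + 1))) * boxForm r c F (i, i', j, k) ≤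
      ∑ X, moveForm F i i' j k X := by
  have hcos := Real.cos_le_one (Real.pi / (D + 1))
  by_cases hd : i = i' ∨ j = k
  · have h0 : boxForm r c F (i, i', j, k) = 0 := by
      unfold boxForm
      refine Finset.sum_eq_zero fun x _ => ?_
      rw [avg_eq_avgKer, avgKer_mulVec]
      have hcls : cls (boxSetoid r c i i' j k) x = {x} := by
        ext y
        rw [mem_cls, Finset.mem_singleton]
        constructor
        · intro h
          exact (eq_of_blk_degenerate hd h).symm
        · rintro rfl
          exact (boxSetoid r c i i' j k).refl' _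
      show (F x - (∑ y ∈ cls (boxSetoid r c i i' j k) x, F y) /
        ((cls (boxSetoid r c i i' j k) x).card : ℝ)) ^ 2 = 0
      rw [hcls]
      simp
    rw [h0, mul_zero]
    exact Finset.sum_nonneg fun X _ => moveForm_nonneg F i i' j k X
  · push Not at hd
    unfold boxForm
    refine sum_le_of_class (boxSetoid r c i i' j k) _ _ fun X => ?_
    set L := cntX X.1 i i' j k with hL
    set μ : ℝ := (avgKer (boxSetoid r c i i' j k) *ᵥ F) X with hμ
    have hcard : ((cls (boxSetoid r c i i' j k) X).card : ℝ) = L := by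
      rw [cls_eq_image, Finset.card_image_of_injOn (par_injOn X i i' j k), Finset.card_range]
    have hL1 : 1 ≤ L := cntX_pos _ _ _ _ _
    have hL0 : (0 : ℝ) < L := by exact_mod_cast hL1
    have e1 : ∑ y ∈ cls (boxSetoid r c i i' j k) X,
        (F y - avg (boxSetoid r c i i' j k) F y) ^ 2 =
        ∑ t ∈ range L, (F (par X i i' j k t) - μ) ^ 2 := by
      have : ∀ y ∈ cls (boxSetoid r c i i' j k) X,
          (F y - avg (boxSetoid r c i i' j k) F y) ^ 2 = (F y - μ) ^ 2 := by
        intro y hy
        rw [avg_eq_avgKer, hμ, avgKer_mulVec_congr _ F (mem_cls.1 hy)]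
      rw [Finset.sum_congr rfl this, sum_cls X i i' j k fun y => (F y - μ) ^ 2]
    have hmean : ∑ t ∈ range L, (F (par X i i' j k t) - μ) = 0 := by
      rw [Finset.sum_sub_distrib, ← sum_cls X i i' j k F, Finset.sum_const, Finset.card_range,
        nsmul_eq_mul, hμ, avgKer_mulVec, hcard]
      field_simp
      ring
    have hP := poincare_path_le hL1 (cntX_le_of X hD i i' j k)
      (fun t => F (par X i i' j k t)) μ hmean
    refine (le_of_eq (by rw [← e1])).trans (hP.trans ?_)
    rw [sum_cls X i i' j k]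
    have hsub : range (L - 1) ⊆ range L := by
      intro t ht
      rw [Finset.mem_range] at ht ⊢
      omega
    refine le_trans (Finset.sum_le_sum fun t ht => ?_)
      (Finset.sum_le_sum_of_subset_of_nonneg hsub fun t _ _ => moveForm_nonneg F i i' j k _)
    have ht' : t + 1 < L := by
      have := Finset.mem_range.1 ht
      omega
    have := le_moveForm F (isMove_par X hd.1 hd.2 ht')
    calc (F (par X i i' j k (t + 1)) - F (par X i i' j k t)) ^ 2
        = (F (par X i i' j k t) - F (par X i i' j k (t + 1))) ^ 2 := by ring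
      _ ≤ _ := this

end Tables

end Vale.Agent.P328.H659
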