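import Vale.Agent.P328.H659.Box

/-!
# Spectral gap of the Diaconis–Gangolli chain
-/

set_option linter.all false

namespace Vale.Agent.P328.H659

open Finset Matrix Vale.Agent.P328

section General

variable {Ω : Type*} [Fintype Ω]

theorem form_eq (K : Matrix Ω Ω ℝ) (hsymm : ∀ x y, K x y = K y x) (hrow : ∀ x, ∑ y, K x y = 1)
    (F : Ω → ℝ) : ∑ x, ∑ y, F x * K x y * F y =
      ∑ x, F x ^ 2 - (1 / 2) * ∑ x, ∑ y, K x y * (F x - F y) ^ 2 := by
  have h1 : ∑ x, ∑ y, K x y * F x ^ 2 = ∑ x, F x ^ 2 := by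
    refine Finset.sum_congr rfl fun x _ => ?_
    rw [← Finset.sum_mul, hrow, one_mul]
  have h2 : ∑ x, ∑ y, K x y * F y ^ 2 = ∑ x, F x ^ 2 := by
    rw [Finset.sum_comm, ← h1]
    exact Finset.sum_congr rfl fun x _ => Finset.sum_congr rfl fun y _ => by rw [hsymm]
  have h3 : ∑ x, ∑ y, K x y * (F x - F y) ^ 2 =
      ∑ x, ∑ y, K x y * F x ^ 2 + ∑ x, ∑ y, K x y * F y ^ 2 -
        2 * ∑ x, ∑ y, F x * K x y * F y := by
    rw [Finset.mul_sum, ← Finset.sum_add_distrib, ← Finset.sum_sub_distrib]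
    refine Finset.sum_congr rfl fun x _ => ?_
    rw [Finset.mul_sum, ← Finset.sum_add_distrib, ← Finset.sum_sub_distrib]
    exact Finset.sum_congr rfl fun y _ => by ring
  rw [h3, h1, h2]
  ring

theorem form_ge (K : Matrix Ω Ω ℝ) (hnn : ∀ x y, 0 ≤ K x y) (hsymm : ∀ x y, K x y = K y x)
    (hrow : ∀ x, ∑ y, K x y = 1) (F : Ω → ℝ) :
    -∑ x, F x ^ 2 ≤ ∑ x, ∑ y, F x * K x y * F y := by
  have h1 : ∑ x, ∑ y, K x y * F x ^ 2 = ∑ x, F x ^ 2 := by
    refine Finset.sum_congr rfl fun x _ => ?_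
    rw [← Finset.sum_mul, hrow, one_mul]
  have h2 : ∑ x, ∑ y, K x y * F y ^ 2 = ∑ x, F x ^ 2 := by
    rw [Finset.sum_comm, ← h1]
    exact Finset.sum_congr rfl fun x _ => Finset.sum_congr rfl fun y _ => by rw [hsymm]
  have h3 : ∑ x, ∑ y, K x y * (F x + F y) ^ 2 =
      ∑ x, ∑ y, K x y * F x ^ 2 + ∑ x, ∑ y, K x y * F y ^ 2 +
        2 * ∑ x, ∑ y, F x * K x y * F y := by
    rw [Finset.mul_sum, ← Finset.sum_add_distrib, ← Finset.sum_add_distrib]
    refine Finset.sum_congr rfl fun x _ => ?_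
    rw [Finset.mul_sum, ← Finset.sum_add_distrib, ← Finset.sum_add_distrib]
    exact Finset.sum_congr rfl fun y _ => by ring
  have h4 : 0 ≤ ∑ x, ∑ y, K x y * (F x + F y) ^ 2 :=
    Finset.sum_nonneg fun x _ => Finset.sum_nonneg fun y _ => mul_nonneg (hnn x y) (sq_nonneg _)
  rw [h3, h1, h2] at h4
  linarith

end General

section Tables

variable {m n : ℕ} (r : Fin m → ℕ) (c : Fin n → ℕ)

open scoped Classical in
/-- the entry of the kernel for one choice of rows and columns -/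
noncomputable def ent1 (i i' : Fin m) (j k : Fin n) (X Y : Tables r c) : ℝ :=
  if IsMove i i' j k X.1 Y.1 ∨ (Y = X ∧ ∀ Z : Tables r c, ¬ IsMove i i' j k X.1 Z.1) then 1 else 0

theorem ent1_nonneg (i i' : Fin m) (j k : Fin n) (X Y : Tables r c) :
    0 ≤ ent1 r c i i' j k X Y := by
  unfold ent1; split_ifs <;> norm_num

theorem ent1_sum (i i' : Fin m) (j k : Fin n) (X : Tables r c) :
    ∑ Y, ent1 r c i i' j k X Y = 1 := by
  classical
  by_cases h : ∃ Z : Tables r c, IsMove i i' j k X.1 Z.1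
  · obtain ⟨Z, hZ⟩ := h
    rw [Finset.sum_eq_single Z]
    · unfold ent1
      rw [if_pos (Or.inl hZ)]
    · intro Y _ hY
      unfold ent1
      rw [if_neg]
      rintro (h1 | ⟨-, h1⟩)
      · exact hY (Subtype.ext (h1.unique hZ))
      · exact h1 Z hZ
    · intro h; exact absurd (Finset.mem_univ _) h
  · push Not at h
    rw [Finset.sum_eq_single X]
    · unfold ent1
      rw [if_pos (Or.inr ⟨rfl, h⟩)]
    · intro Y _ hY
      unfold ent1
      rw [if_neg]
      rintro (h1 | ⟨h1, -⟩)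
      · exact h Y h1
      · exact hY h1
    · intro h; exact absurd (Finset.mem_univ _) h

theorem ent1_symm {i i' : Fin m} {j k : Fin n} {X Y : Tables r c} (hXY : X ≠ Y) :
    ent1 r c i i' j k X Y = ent1 r c i' i j k Y X := by
  classical
  unfold ent1
  by_cases h : IsMove i i' j k X.1 Y.1
  · rw [if_pos (Or.inl h), if_pos (Or.inl h.swap)]
  · have h' : ¬ IsMove i' i j k Y.1 X.1 := fun h1 => h h1.swap
    rw [if_neg, if_neg]
    · rintro (h1 | ⟨h1, -⟩)
      · exact h' h1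
      · exact hXY h1
    · rintro (h1 | ⟨h1, -⟩)
      · exact h h1
      · exact hXY h1.symm

theorem ent1_energy (i i' : Fin m) (j k : Fin n) (F : Tables r c → ℝ) (X : Tables r c) :
    ∑ Y, ent1 r c i i' j k X Y * (F X - F Y) ^ 2 = moveForm F i i' j k X := by
  classical
  unfold moveForm
  refine Finset.sum_congr rfl fun Y _ => ?_
  unfold ent1
  by_cases h : IsMove i i' j k X.1 Y.1
  · rw [if_pos (Or.inl h), if_pos h, one_mul]
  · rw [if_neg h]
    by_cases hY : Y = X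
    · rw [hY, sub_self]; simp
    · rw [if_neg, zero_mul]
      rintro (h1 | ⟨h1, -⟩)
      · exact h h1
      · exact hY h1

/-- the chain on `Tables` -/
noncomputable def ker : Matrix (Tables r c) (Tables r c) ℝ :=
  fun X Y => 1 / ((m : ℝ) ^ 2 * (n : ℝ) ^ 2) *
    ∑ i : Fin m, ∑ i' : Fin m, ∑ j : Fin n, ∑ k : Fin n, ent1 r c i i' j k X Y

theorem dgStep_eq : dgStep r c = ker r c := by
  funext X Y
  unfold dgStep ker
  rfl

theorem ker_nonneg (X Y : Tables r c) : 0 ≤ ker r c X Y := by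
  unfold ker
  refine mul_nonneg (by positivity) ?_
  exact Finset.sum_nonneg fun i _ => Finset.sum_nonneg fun i' _ => Finset.sum_nonneg fun j _ =>
    Finset.sum_nonneg fun k _ => ent1_nonneg r c i i' j k X Y

theorem ker_symm (X Y : Tables r c) : ker r c X Y = ker r c Y X := by
  by_cases hXY : X = Y
  · rw [hXY]
  · unfold ker
    congr 1
    rw [Finset.sum_comm]
    refine Finset.sum_congr rfl fun i _ => Finset.sum_congr rfl fun i' _ =>
      Finset.sum_congr rfl fun j _ => Finset.sum_congr rfl fun k _ => ?_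
    exact ent1_symm r c hXY

theorem ker_apply (X : Tables r c) (φ : Tables r c → ℝ) :
    ∑ Y, ker r c X Y * φ Y = 1 / ((m : ℝ) ^ 2 * (n : ℝ) ^ 2) *
      ∑ i : Fin m, ∑ i' : Fin m, ∑ j : Fin n, ∑ k : Fin n,
        ∑ Y, ent1 r c i i' j k X Y * φ Y := by
  unfold ker
  simp only [mul_assoc, Finset.sum_mul, ← Finset.mul_sum]
  congr 1
  rw [Finset.sum_comm]
  refine Finset.sum_congr rfl fun i _ => ?_
  rw [Finset.sum_comm]
  refine Finset.sum_congr rfl fun i' _ => ?_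
  rw [Finset.sum_comm]
  refine Finset.sum_congr rfl fun j _ => ?_
  rw [Finset.sum_comm]

theorem ker_row (hm : 2 ≤ m) (hn : 2 ≤ n) (X : Tables r c) : ∑ Y, ker r c X Y = 1 := by
  have h := ker_apply r c X (fun _ => 1)
  simp only [mul_one, ent1_sum, Finset.sum_const, Finset.card_univ, Fintype.card_fin,
    nsmul_eq_mul] at h
  rw [h]
  have h1 : (m : ℝ) ≠ 0 := by
    have : 0 < m := by omega
    exact_mod_cast this.ne'
  have h2 : (n : ℝ) ≠ 0 := by
    have : 0 < n := by omega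
    exact_mod_cast this.ne'
  field_simp

theorem ker_energy (F : Tables r c → ℝ) :
    ∑ X, ∑ Y, ker r c X Y * (F X - F Y) ^ 2 = 1 / ((m : ℝ) ^ 2 * (n : ℝ) ^ 2) *
      ∑ q : Fin m × Fin m × Fin n × Fin n, ∑ X, moveForm F q.1 q.2.1 q.2.2.1 q.2.2.2 X := by
  have h : ∀ X, ∑ Y, ker r c X Y * (F X - F Y) ^ 2 = 1 / ((m : ℝ) ^ 2 * (n : ℝ) ^ 2) *
      ∑ q : Fin m × Fin m × Fin n × Fin n, moveForm F q.1 q.2.1 q.2.2.1 q.2.2.2 X := by
    intro X
    rw [ker_apply r c X (fun Y => (F X - F Y) ^ 2)]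
    simp only [ent1_energy, Fintype.sum_prod_type]
  simp only [h]
  rw [← Finset.mul_sum, Finset.sum_comm]

variable {r c}

theorem gap_pos_aux (hm : 2 ≤ m) (hn : 2 ≤ n) : (0 : ℝ) < (m : ℝ) ^ 2 * (n : ℝ) ^ 2 := by
  have h1 : (0 : ℝ) < m := by exact_mod_cast (by omega : 0 < m)
  have h2 : (0 : ℝ) < n := by exact_mod_cast (by omega : 0 < n)
  positivity

/-- **Spectral gap for all margins.** -/
theorem ker_gap (hm : 2 ≤ m) (hn : 2 ≤ n) {D : ℕ} (hD : (∀ i, r i ≤ D) ∨ ∀ j, c j ≤ D)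
    (F : Tables r c → ℝ) (hF : ∑ X, F X = 0) :
    ∑ X, ∑ Y, F X * ker r c X Y * F Y ≤ (1 - dgGap m n D) * ∑ X, F X ^ 2 := by
  rw [form_eq _ (ker_symm r c) (ker_row r c hm hn), ker_energy]
  have h1 := four_variance_le r c F
  have h2 : ∑ x, (F x - avg ⊤ F x) ^ 2 = ∑ x, F x ^ 2 :=
    Finset.sum_congr rfl fun x _ => by rw [avg_top_eq_zero F hF x, sub_zero]
  rw [h2] at h1
  set lam : ℝ := 2 * (1 - Real.cos (Real.pi / (D + 1))) with hlam
  have hlam0 : 0 ≤ lam := by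
    have := Real.cos_le_one (Real.pi / (D + 1))
    rw [hlam]; linarith
  have h3 : lam * ∑ q : Fin m × Fin m × Fin n × Fin n, boxForm r c F q ≤
      ∑ q : Fin m × Fin m × Fin n × Fin n, ∑ X, moveForm F q.1 q.2.1 q.2.2.1 q.2.2.2 X := by
    rw [Finset.mul_sum]
    exact Finset.sum_le_sum fun q _ => box_le hD F q.1 q.2.1 q.2.2.1 q.2.2.2
  have h4 := mul_le_mul_of_nonneg_left h1 hlam0
  have hmn := gap_pos_aux hm hn
  set A := ∑ x, F x ^ 2
  set E := ∑ q : Fin m × Fin m × Fin n × Fin n, ∑ X, moveForm F q.1 q.2.1 q.2.2.1 q.2.2.2 X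
  have h5 : 4 * lam * A ≤ E := by linarith
  have h6 : dgGap m n D = 1 / 2 * (1 / ((m : ℝ) ^ 2 * (n : ℝ) ^ 2)) * (4 * lam) := by
    unfold dgGap
    rw [hlam]
    field_simp
  have h7 : dgGap m n D * A ≤ 1 / 2 * (1 / ((m : ℝ) ^ 2 * (n : ℝ) ^ 2) * E) := by
    rw [h6]
    have : 1 / 2 * (1 / ((m : ℝ) ^ 2 * (n : ℝ) ^ 2)) * (4 * lam) * A =
        1 / 2 * (1 / ((m : ℝ) ^ 2 * (n : ℝ) ^ 2) * (4 * lam * A)) := by ring
    rw [this]
    gcongr
  linarith

end Tables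

end Vale.Agent.P328.H659
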