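import Vale.Agent.P328.H659.Sharp

/-!
# The Diaconis–Gangolli chain: summary
-/

set_option linter.all false

namespace Vale.Agent.P328.H659

open Finset Matrix

variable {m n : ℕ}

theorem kernel_part (r : Fin m → ℕ) (c : Fin n → ℕ) (hm : 2 ≤ m) (hn : 2 ≤ n) :
    (∀ X Y, 0 ≤ dgStep r c X Y ∧ dgStep r c X Y = dgStep r c Y X) ∧
      ∀ X, ∑ Y, dgStep r c X Y = 1 := by
  rw [dgStep_eq]
  exact ⟨fun X Y => ⟨ker_nonneg r c X Y, ker_symm r c X Y⟩, fun X => ker_row r c hm hn X⟩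

theorem gap_part (r : Fin m → ℕ) (c : Fin n → ℕ) (D : ℕ) (hm : 2 ≤ m) (hn : 2 ≤ n)
    (hD : (∀ i, r i ≤ D) ∨ ∀ j, c j ≤ D) (F : RM.Omega r c → ℝ) (hF : ∑ X, F X = 0) :
    ∑ X, ∑ Y, F X * dgStep r c X Y * F Y ≤ (1 - dgGap m n D) * ∑ X, F X ^ 2 := by
  rw [dgStep_eq]
  exact ker_gap hm hn hD F hF

theorem lazy_part (r : Fin m → ℕ) (c : Fin n → ℕ) (D : ℕ) (hm : 2 ≤ m) (hn : 2 ≤ n)
    (hD : (∀ i, r i ≤ D) ∨ ∀ j, c j ≤ D) :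
    RM.SecondEigLe (lazyStep r c) (1 - dgGap m n D / 2) := by
  intro F hF
  rw [lazyStep_eq]
  exact ⟨lker_psd r c hm hn F, lker_gap hm hn hD F hF⟩

theorem mix_part (r : Fin m → ℕ) (c : Fin n → ℕ) (D : ℕ) (hm : 2 ≤ m) (hn : 2 ≤ n)
    (hD : (∀ i, r i ≤ D) ∨ ∀ j, c j ≤ D) (X : RM.Omega r c) (ε : ℝ) (hε : 0 < ε) (t : ℕ)
    (ht : (m : ℝ) ^ 2 * (n : ℝ) ^ 2 * ((D : ℝ) + 1) ^ 2 / 4 *
      ((m : ℝ) * n / 2 * Real.log ((∑ i, r i : ℕ) + 1) + Real.log (1 / ε)) ≤ t) :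
    RM.tv ((lazyStep r c ^ t) X) (fun _ => 1 / (Fintype.card (RM.Omega r c) : ℝ)) ≤ ε := by
  rw [lazyStep_eq]
  exact mixing_dg hm hn hD X ε hε t ht

theorem sharp_part (m n D : ℕ) (hm : 2 ≤ m) (hn : 2 ≤ n) (hD : 1 ≤ D) :
    ∃ F : RM.Omega (fun i : Fin m => if (i : ℕ) < 2 then D else 0)
        (fun j : Fin n => if (j : ℕ) < 2 then D else 0) → ℝ,
      F ≠ 0 ∧ ∑ X, F X = 0 ∧
        ∀ X, ∑ Y, dgStep _ _ X Y * F Y = (1 - dgGap m n D) * F X := by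
  refine ⟨eig (D := D) hm hn, ?_, eig_sum hm hn, fun X => ?_⟩
  · intro h
    exact eig_ne_zero hm hn hD (congrFun h _)
  · rw [dgStep_eq]
    exact eig_eq hm hn X

end Vale.Agent.P328.H659
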