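import Vale.Agent.P328.H659.Gap

/-!
# Mixing time of the lazy Diaconis–Gangolli chain
-/

set_option linter.all false

namespace Vale.Agent.P328.H659

open Finset Matrix Vale.Agent.P328

variable {m n : ℕ} (r : Fin m → ℕ) (c : Fin n → ℕ)

/-- the lazy chain on `Tables` -/
noncomputable def lker : Matrix (Tables r c) (Tables r c) ℝ := (1 / 2 : ℝ) • (1 + ker r c)

theorem lazyStep_eq : lazyStep r c = lker r c := by
  unfold lazyStep lker
  rw [dgStep_eq]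
  rfl

theorem lker_apply (X Y : Tables r c) :
    lker r c X Y = 1 / 2 * ((if X = Y then 1 else 0) + ker r c X Y) := by
  unfold lker
  rw [Matrix.smul_apply, Matrix.add_apply, Matrix.one_apply, smul_eq_mul]

theorem lker_nonneg (X Y : Tables r c) : 0 ≤ lker r c X Y := by
  rw [lker_apply]
  have := ker_nonneg r c X Y
  split_ifs <;> positivity

theorem lker_symm (X Y : Tables r c) : lker r c X Y = lker r c Y X := by
  rw [lker_apply, lker_apply, ker_symm]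
  simp only [eq_comm]

theorem lker_row (hm : 2 ≤ m) (hn : 2 ≤ n) (X : Tables r c) : ∑ Y, lker r c X Y = 1 := by
  simp only [lker_apply, ← Finset.mul_sum, Finset.sum_add_distrib, Finset.sum_ite_eq,
    Finset.mem_univ, if_true, ker_row r c hm hn]
  norm_num

theorem lker_form (F : Tables r c → ℝ) : ∑ X, ∑ Y, F X * lker r c X Y * F Y =
    1 / 2 * (∑ X, F X ^ 2 + ∑ X, ∑ Y, F X * ker r c X Y * F Y) := by
  have h : ∀ X, ∑ Y, F X * lker r c X Y * F Y =
      1 / 2 * (F X ^ 2 + ∑ Y, F X * ker r c X Y * F Y) := by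
    intro X
    have e : ∀ Y, F X * lker r c X Y * F Y =
        1 / 2 * ((if X = Y then F X * F Y else 0) + F X * ker r c X Y * F Y) := by
      intro Y
      rw [lker_apply]
      split_ifs <;> ring
    simp only [e, ← Finset.mul_sum, Finset.sum_add_distrib, Finset.sum_ite_eq, Finset.mem_univ,
      if_true]
    ring
  simp only [h, ← Finset.mul_sum, Finset.sum_add_distrib]

theorem lker_psd (hm : 2 ≤ m) (hn : 2 ≤ n) (F : Tables r c → ℝ) :
    0 ≤ ∑ X, ∑ Y, F X * lker r c X Y * F Y := by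
  rw [lker_form]
  have := form_ge (ker r c) (ker_nonneg r c) (ker_symm r c) (ker_row r c hm hn) F
  linarith

variable {r c}

theorem lker_gap (hm : 2 ≤ m) (hn : 2 ≤ n) {D : ℕ} (hD : (∀ i, r i ≤ D) ∨ ∀ j, c j ≤ D)
    (F : Tables r c → ℝ) (hF : ∑ X, F X = 0) :
    ∑ X, ∑ Y, F X * lker r c X Y * F Y ≤ (1 - dgGap m n D / 2) * ∑ X, F X ^ 2 := by
  rw [lker_form]
  have := ker_gap hm hn hD F hF
  nlinarith [this]

theorem dgGap_ge (hm : 2 ≤ m) (hn : 2 ≤ n) (D : ℕ) :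
    4 / ((m : ℝ) ^ 2 * (n : ℝ) ^ 2 * ((D : ℝ) + 1) ^ 2) ≤ dgGap m n D / 2 := by
  have hmn := gap_pos_aux hm hn
  have hD : (0 : ℝ) < (D : ℝ) + 1 := by positivity
  have hpi := Real.pi_pos
  have h1 : |Real.pi / ((D : ℝ) + 1)| ≤ Real.pi := by
    rw [abs_of_pos (by positivity)]
    exact div_le_self hpi.le (by linarith [(Nat.cast_nonneg D : (0 : ℝ) ≤ D)])
  have h2 := Real.cos_le_one_sub_mul_cos_sq h1
  have h3 : 2 / Real.pi ^ 2 * (Real.pi / ((D : ℝ) + 1)) ^ 2 = 2 / ((D : ℝ) + 1) ^ 2 := by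
    field_simp
  rw [h3] at h2
  have h4 : 2 / ((D : ℝ) + 1) ^ 2 ≤ 1 - Real.cos (Real.pi / ((D : ℝ) + 1)) := by linarith
  calc 4 / ((m : ℝ) ^ 2 * (n : ℝ) ^ 2 * ((D : ℝ) + 1) ^ 2)
      = 2 * (2 / ((D : ℝ) + 1) ^ 2) / ((m : ℝ) ^ 2 * (n : ℝ) ^ 2) := by field_simp; norm_num
    _ ≤ 2 * (1 - Real.cos (Real.pi / ((D : ℝ) + 1))) / ((m : ℝ) ^ 2 * (n : ℝ) ^ 2) := by gcongr
    _ = dgGap m n D / 2 := by unfold dgGap; ring

theorem dgGap_le (hm : 2 ≤ m) (hn : 2 ≤ n) (D : ℕ) : dgGap m n D / 2 ≤ 1 := by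
  have hm0 : (2 : ℝ) ≤ m := by exact_mod_cast hm
  have hn0 : (2 : ℝ) ≤ n := by exact_mod_cast hn
  have hmn := gap_pos_aux hm hn
  have hmn4 : 16 ≤ (m : ℝ) ^ 2 * (n : ℝ) ^ 2 := by
    have h3 : (2 : ℝ) ^ 2 ≤ (m : ℝ) ^ 2 := by gcongr
    have h4 : (2 : ℝ) ^ 2 ≤ (n : ℝ) ^ 2 := by gcongr
    nlinarith
  have hcos := Real.neg_one_le_cos (Real.pi / ((D : ℝ) + 1))
  unfold dgGap
  rw [div_div, div_le_one (by positivity)]
  linarith

theorem tv_lker_le (hm : 2 ≤ m) (hn : 2 ≤ n) {D : ℕ} (hD : (∀ i, r i ≤ D) ∨ ∀ j, c j ≤ D)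
    (X : Tables r c) (t : ℕ) :
    tv (fun Y => ((lker r c) ^ t) X Y) (fun _ => (1 : ℝ) / Fintype.card (Tables r c)) ≤
      (1 / 2) * (Real.sqrt (Fintype.card (Tables r c)) * (1 - dgGap m n D / 2) ^ t) := by
  have : Nonempty (Tables r c) := ⟨X⟩
  have hd : ∀ F : Tables r c → ℝ, F ⬝ᵥ lker r c *ᵥ F = ∑ X, ∑ Y, F X * lker r c X Y * F Y := by
    intro F
    simp only [dotProduct, mulVec, Finset.mul_sum]
    exact Finset.sum_congr rfl fun X _ => Finset.sum_congr rfl fun Y _ => by ring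
  refine tv_pow_le (lker r c) ?_ ?_ (lker_row r c hm hn) (dgGap_le hm hn D) ?_ X t
  · ext X Y
    exact lker_symm r c Y X
  · intro F
    rw [hd]
    exact lker_psd r c hm hn F
  · intro F hF
    rw [hd]
    have e : F ⬝ᵥ F = ∑ x, F x ^ 2 := by
      simp only [dotProduct]; exact Finset.sum_congr rfl fun x _ => by ring
    rw [e]
    exact lker_gap hm hn hD F hF

theorem mixing_dg (hm : 2 ≤ m) (hn : 2 ≤ n) {D : ℕ} (hD : (∀ i, r i ≤ D) ∨ ∀ j, c j ≤ D)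
    (X : Tables r c) (ε : ℝ) (hε : 0 < ε) (t : ℕ)
    (ht : (m : ℝ) ^ 2 * (n : ℝ) ^ 2 * ((D : ℝ) + 1) ^ 2 / 4 *
      ((m : ℝ) * n / 2 * Real.log ((∑ i, r i : ℕ) + 1) + Real.log (1 / ε)) ≤ t) :
    tv (fun Y => ((lker r c) ^ t) X Y) (fun _ => (1 : ℝ) / Fintype.card (Tables r c)) ≤ ε := by
  have h := tv_lker_le hm hn hD X t
  refine h.trans ?_
  have hmn := gap_pos_aux hm hn
  set g : ℝ := 4 / ((m : ℝ) ^ 2 * (n : ℝ) ^ 2 * ((D : ℝ) + 1) ^ 2) with hg
  have hg0 : 0 < g := by positivity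
  have hg1 := dgGap_ge hm hn D
  rw [← hg] at hg1
  have hg2 := dgGap_le hm hn D
  have hpow : (1 - dgGap m n D / 2) ^ t ≤ Real.exp (-(g * t)) := by
    have h1 : 1 - dgGap m n D / 2 ≤ Real.exp (-g) := by
      have := Real.add_one_le_exp (-g); linarith
    calc (1 - dgGap m n D / 2) ^ t ≤ (Real.exp (-g)) ^ t :=
          pow_le_pow_left₀ (by linarith) h1 t
      _ = Real.exp (-(g * t)) := by rw [← Real.exp_nat_mul]; congr 1; ring
  set N1 : ℝ := (∑ i, r i : ℕ) + 1 with hN1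
  have hN1pos : (0 : ℝ) < N1 := by positivity
  have hsq : Real.sqrt (Fintype.card (Tables r c)) ≤
      Real.exp ((m : ℝ) * n / 2 * Real.log N1) := by
    have h1 : (Fintype.card (Tables r c) : ℝ) ≤ N1 ^ (m * n) := RM.card_le r c
    have h2 : N1 ^ (m * n) = (Real.exp ((m : ℝ) * n / 2 * Real.log N1)) ^ 2 := by
      rw [← Real.exp_nat_mul]
      have : ((2 : ℕ) : ℝ) * ((m : ℝ) * n / 2 * Real.log N1) = ((m * n : ℕ) : ℝ) * Real.log N1 := by
        push_cast; ring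
      rw [this, Real.exp_nat_mul, Real.exp_log hN1pos]
    rw [h2] at h1
    calc Real.sqrt (Fintype.card (Tables r c)) ≤
        Real.sqrt ((Real.exp ((m : ℝ) * n / 2 * Real.log N1)) ^ 2) := Real.sqrt_le_sqrt h1
      _ = _ := Real.sqrt_sq (Real.exp_pos _).le
  have hgt : (m : ℝ) * n / 2 * Real.log N1 + Real.log (1 / ε) ≤ g * t := by
    have : (m : ℝ) * n / 2 * Real.log N1 + Real.log (1 / ε) =
        g * ((m : ℝ) ^ 2 * (n : ℝ) ^ 2 * ((D : ℝ) + 1) ^ 2 / 4 *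
          ((m : ℝ) * n / 2 * Real.log N1 + Real.log (1 / ε))) := by
      rw [hg]
      field_simp
    rw [this]
    exact mul_le_mul_of_nonneg_left ht hg0.le
  have h0 : (0 : ℝ) ≤ (1 - dgGap m n D / 2) ^ t := pow_nonneg (by linarith) t
  calc (1 / 2) * (Real.sqrt (Fintype.card (Tables r c)) * (1 - dgGap m n D / 2) ^ t)
      ≤ (1 / 2) * (Real.exp ((m : ℝ) * n / 2 * Real.log N1) * Real.exp (-(g * t))) := by
        gcongr
    _ = (1 / 2) * Real.exp ((m : ℝ) * n / 2 * Real.log N1 - g * t) := by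
        rw [← Real.exp_add]; rfl
    _ ≤ (1 / 2) * Real.exp (-Real.log (1 / ε)) := by
        gcongr; linarith
    _ = (1 / 2) * ε := by
        rw [Real.log_div one_ne_zero hε.ne', Real.log_one, zero_sub, neg_neg, Real.exp_log hε]
    _ ≤ ε := by linarith

end Vale.Agent.P328.H659
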