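import Vale.Agent.P328.H659.Mix

/-!
# The bound is attained: margins `(D, D, 0, ..., 0)`
-/

set_option linter.all false

namespace Vale.Agent.P328.H659

open Finset Matrix Vale.Agent.P328

section Delta

variable {m n : ℕ} {r : Fin m → ℕ} {c : Fin n → ℕ}

/-- drift of `F` for one choice of rows and columns -/
noncomputable def drift (F : Tables r c → ℝ) (X : Tables r c) (i i' : Fin m) (j k : Fin n) : ℝ :=
  ∑ Y, ent1 r c i i' j k X Y * (F Y - F X)

theorem drift_zero (F : Tables r c → ℝ) {X : Tables r c} {i i' : Fin m} {j k : Fin n}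
    (h : ∀ Z : Tables r c, ¬ IsMove i i' j k X.1 Z.1) : drift F X i i' j k = 0 := by
  classical
  refine Finset.sum_eq_zero fun Y _ => ?_
  by_cases hY : Y = X
  · rw [hY, sub_self, mul_zero]
  · unfold ent1
    rw [if_neg, zero_mul]
    rintro (h1 | ⟨h1, -⟩)
    · exact h Y h1
    · exact hY h1

theorem drift_move (F : Tables r c → ℝ) {X Z : Tables r c} {i i' : Fin m} {j k : Fin n}
    (h : IsMove i i' j k X.1 Z.1) : drift F X i i' j k = F Z - F X := by
  classical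
  unfold drift
  rw [Finset.sum_eq_single Z]
  · unfold ent1
    rw [if_pos (Or.inl h), one_mul]
  · intro Y _ hY
    unfold ent1
    rw [if_neg, zero_mul]
    rintro (h1 | ⟨-, h1⟩)
    · exact hY (Subtype.ext (h1.unique h))
    · exact h1 Z h
  · intro h; exact absurd (Finset.mem_univ _) h

theorem ker_drift (hm : 2 ≤ m) (hn : 2 ≤ n) (F : Tables r c → ℝ) (X : Tables r c) :
    ∑ Y, ker r c X Y * F Y = F X + 1 / ((m : ℝ) ^ 2 * (n : ℝ) ^ 2) *
      ∑ i : Fin m, ∑ i' : Fin m, ∑ j : Fin n, ∑ k : Fin n, drift F X i i' j k := by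
  have h := ker_apply r c X (fun Y => F Y - F X)
  have e : ∑ Y, ker r c X Y * (F Y - F X) = ∑ Y, ker r c X Y * F Y - F X := by
    simp only [mul_sub, Finset.sum_sub_distrib, ← Finset.sum_mul, ker_row r c hm hn, one_mul]
  rw [e] at h
  unfold drift
  linarith

end Delta

section Block

variable (m n D : ℕ)

/-- the margins -/
def mg (D : ℕ) (m : ℕ) : Fin m → ℕ := fun i => if (i : ℕ) < 2 then D else 0

/-- the table with upper left entry `x` -/
def tabF (x : ℕ) : Fin m → Fin n → ℕ := fun i j =>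
  if ((i : ℕ) = 0 ∧ (j : ℕ) = 0) ∨ ((i : ℕ) = 1 ∧ (j : ℕ) = 1) then x else
  if ((i : ℕ) = 0 ∧ (j : ℕ) = 1) ∨ ((i : ℕ) = 1 ∧ (j : ℕ) = 0) then D - x else 0

variable {m n D}

theorem sum_fin_two (hn : 2 ≤ n) (f : Fin n → ℕ) (h : ∀ j : Fin n, 2 ≤ (j : ℕ) → f j = 0) :
    ∑ j, f j = f ⟨0, by omega⟩ + f ⟨1, by omega⟩ := by
  refine Fintype.sum_eq_add _ _ ?_ ?_
  · intro h
    have := congrArg Fin.val h
    simp at this
  · rintro x ⟨h0, h1⟩
    apply h
    by_contra hx
    push Not at hx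
    have : (x : ℕ) = 0 ∨ (x : ℕ) = 1 := by omega
    rcases this with e | e
    · exact h0 (Fin.ext e)
    · exact h1 (Fin.ext e)

theorem sum_fin_two' (hn : 2 ≤ n) (f : Fin n → ℝ) (h : ∀ j : Fin n, 2 ≤ (j : ℕ) → f j = 0) :
    ∑ j, f j = f ⟨0, by omega⟩ + f ⟨1, by omega⟩ := by
  refine Fintype.sum_eq_add _ _ ?_ ?_
  · intro h
    have := congrArg Fin.val h
    simp at this
  · rintro x ⟨h0, h1⟩
    apply h
    by_contra hx
    push Not at hx
    have : (x : ℕ) = 0 ∨ (x : ℕ) = 1 := by omega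
    rcases this with e | e
    · exact h0 (Fin.ext e)
    · exact h1 (Fin.ext e)

theorem tabF_row (hn : 2 ≤ n) {x : ℕ} (hx : x ≤ D) (i : Fin m) :
    ∑ j, tabF m n D x i j = mg D m i := by
  rw [sum_fin_two hn]
  · unfold tabF mg
    rcases Nat.lt_trichotomy (i : ℕ) 1 with h | h | h
    · have : (i : ℕ) = 0 := by omega
      simp [this]; omega
    · simp [h]; omega
    · have h1 : (i : ℕ) ≠ 0 := by omega
      have h2 : (i : ℕ) ≠ 1 := by omega
      have h3 : ¬ (i : ℕ) < 2 := by omega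
      simp [h1, h2, h3]
  · intro j hj
    unfold tabF
    have h1 : (j : ℕ) ≠ 0 := by omega
    have h2 : (j : ℕ) ≠ 1 := by omega
    simp [h1, h2]

theorem tabF_col (hm : 2 ≤ m) {x : ℕ} (hx : x ≤ D) (j : Fin n) :
    ∑ i, tabF m n D x i j = mg D n j := by
  rw [sum_fin_two hm]
  · unfold tabF mg
    rcases Nat.lt_trichotomy (j : ℕ) 1 with h | h | h
    · have : (j : ℕ) = 0 := by omega
      simp [this]; omega
    · simp [h]; omega
    · have h1 : (j : ℕ) ≠ 0 := by omega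
      have h2 : (j : ℕ) ≠ 1 := by omega
      have h3 : ¬ (j : ℕ) < 2 := by omega
      simp [h1, h2, h3]
  · intro i hi
    unfold tabF
    have h1 : (i : ℕ) ≠ 0 := by omega
    have h2 : (i : ℕ) ≠ 1 := by omega
    simp [h1, h2]

/-- the table as an element of the state space -/
def tab (hm : 2 ≤ m) (hn : 2 ≤ n) {x : ℕ} (hx : x ≤ D) : Tables (mg D m) (mg D n) :=
  ⟨tabF m n D x, tabF_row hn hx, tabF_col hm hx⟩

theorem entry_zero_row (X : Tables (mg D m) (mg D n)) {i : Fin m} (hi : 2 ≤ (i : ℕ))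
    (j : Fin n) : X.1 i j = 0 := by
  have h := X.2.1 i
  have h1 : X.1 i j ≤ mg D m i := by
    rw [← h]
    exact Finset.single_le_sum (f := fun j => X.1 i j) (fun _ _ => Nat.zero_le _)
      (Finset.mem_univ j)
  unfold mg at h1
  rw [if_neg (by omega)] at h1
  omega

theorem entry_zero_col (X : Tables (mg D m) (mg D n)) (i : Fin m) {j : Fin n}
    (hj : 2 ≤ (j : ℕ)) : X.1 i j = 0 := by
  have h := X.2.2 j
  have h1 : X.1 i j ≤ mg D n j := by
    rw [← h]
    exact Finset.single_le_sum (f := fun i => X.1 i j) (fun _ _ => Nat.zero_le _)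
      (Finset.mem_univ i)
  unfold mg at h1
  rw [if_neg (by omega)] at h1
  omega

theorem exists_tab (hm : 2 ≤ m) (hn : 2 ≤ n) (X : Tables (mg D m) (mg D n)) :
    ∃ (x : ℕ) (hx : x ≤ D), X = tab hm hn hx := by
  have r0 := X.2.1 ⟨0, by omega⟩
  have r1 := X.2.1 ⟨1, by omega⟩
  have c0 := X.2.2 ⟨0, by omega⟩
  have c1 := X.2.2 ⟨1, by omega⟩
  rw [sum_fin_two hn _ fun j hj => entry_zero_col X _ hj] at r0 r1
  rw [sum_fin_two hm _ fun i hi => entry_zero_row X hi _] at c0 c1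
  simp only [mg, Nat.zero_lt_two, Nat.one_lt_two, if_true] at r0 r1 c0 c1
  refine ⟨X.1 ⟨0, by omega⟩ ⟨0, by omega⟩, by omega, ?_⟩
  apply Subtype.ext
  funext i j
  show X.1 i j = tabF m n D _ i j
  unfold tabF
  by_cases hi : 2 ≤ (i : ℕ)
  · rw [entry_zero_row X hi, if_neg (by omega), if_neg (by omega)]
  · by_cases hj : 2 ≤ (j : ℕ)
    · rw [entry_zero_col X i hj, if_neg (by omega), if_neg (by omega)]
    · have hi' : i = ⟨0, by omega⟩ ∨ i = ⟨1, by omega⟩ := by
        have : (i : ℕ) = 0 ∨ (i : ℕ) = 1 := by omega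
        rcases this with h | h
        · left; exact Fin.ext h
        · right; exact Fin.ext h
      have hj' : j = ⟨0, by omega⟩ ∨ j = ⟨1, by omega⟩ := by
        have : (j : ℕ) = 0 ∨ (j : ℕ) = 1 := by omega
        rcases this with h | h
        · left; exact Fin.ext h
        · right; exact Fin.ext h
      rcases hi' with e1 | e1 <;> rcases hj' with e2 | e2 <;> simp [e1, e2] <;> omega

/-- the test function -/
noncomputable def phi (D : ℕ) (y : ℝ) : ℝ := Real.cos (Real.pi / (D + 1) * (y + 1 / 2))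

theorem phi_top : phi D ((D : ℝ) + 1) = phi D D := by
  unfold phi
  have h : ((D : ℝ) + 1) ≠ 0 := by positivity
  have e1 : Real.pi / ((D : ℝ) + 1) * ((D : ℝ) + 1 + 1 / 2) =
      Real.pi / ((D : ℝ) + 1) * (1 / 2) + Real.pi := by field_simp; ring
  have e2 : Real.pi / ((D : ℝ) + 1) * ((D : ℝ) + 1 / 2) =
      Real.pi - Real.pi / ((D : ℝ) + 1) * (1 / 2) := by field_simp; ring
  rw [e1, e2, Real.cos_add_pi, Real.cos_pi_sub]

theorem phi_bot : phi D (-1) = phi D 0 := by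
  unfold phi
  have e : Real.pi / ((D : ℝ) + 1) * (-1 + 1 / 2) = -(Real.pi / ((D : ℝ) + 1) * (0 + 1 / 2)) := by
    ring
  rw [e, Real.cos_neg]

theorem phi_add (y : ℝ) : phi D (y + 1) + phi D (y - 1) =
    2 * Real.cos (Real.pi / (D + 1)) * phi D y := by
  unfold phi
  have e1 : Real.pi / ((D : ℝ) + 1) * (y + 1 + 1 / 2) =
      Real.pi / ((D : ℝ) + 1) * (y + 1 / 2) + Real.pi / ((D : ℝ) + 1) := by ring
  have e2 : Real.pi / ((D : ℝ) + 1) * (y - 1 + 1 / 2) =
      Real.pi / ((D : ℝ) + 1) * (y + 1 / 2) - Real.pi / ((D : ℝ) + 1) := by ring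
  rw [e1, e2, Real.cos_add, Real.cos_sub]
  ring

/-- the eigenfunction -/
noncomputable def eig (hm : 2 ≤ m) (hn : 2 ≤ n) (X : Tables (mg D m) (mg D n)) : ℝ :=
  phi D (X.1 ⟨0, by omega⟩ ⟨0, by omega⟩)

theorem eig_tab (hm : 2 ≤ m) (hn : 2 ≤ n) {x : ℕ} (hx : x ≤ D) :
    eig hm hn (tab hm hn hx) = phi D x := by
  unfold eig tab tabF
  simp

theorem isMove_up1 (hm : 2 ≤ m) (hn : 2 ≤ n) {x : ℕ} (hx : x ≤ D) (hx' : x + 1 ≤ D) :
    IsMove (⟨0, by omega⟩ : Fin m) ⟨1, by omega⟩ (⟨0, by omega⟩ : Fin n) ⟨1, by omega⟩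
      (tab hm hn hx).1 (tab hm hn hx').1 := by
  refine ⟨by simp, by simp, ?_, ?_, ?_, ?_, ?_⟩
  · simp [tab, tabF]
  · simp [tab, tabF]
  · simp [tab, tabF]; omega
  · simp [tab, tabF]; omega
  · intro a b hab
    have h1 : ¬ ((a : ℕ) < 2 ∧ (b : ℕ) < 2) := by
      rintro ⟨ha, hb⟩
      apply hab
      constructor
      · have : (a : ℕ) = 0 ∨ (a : ℕ) = 1 := by omega
        rcases this with h | h
        · left; exact Fin.ext h
        · right; exact Fin.ext h
      · have : (b : ℕ) = 0 ∨ (b : ℕ) = 1 := by omega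
        rcases this with h | h
        · left; exact Fin.ext h
        · right; exact Fin.ext h
    show tabF m n D x a b = tabF m n D (x + 1) a b
    unfold tabF
    rw [if_neg (by omega), if_neg (by omega), if_neg (by omega), if_neg (by omega)]

theorem isMove_flip {i i' : Fin m} {j k : Fin n} {X Y : Fin m → Fin n → ℕ}
    (h : IsMove i i' j k X Y) : IsMove i' i k j X Y := by
  obtain ⟨hi, hj, a1, a2, a3, a4, a5⟩ := h
  exact ⟨hi.symm, hj.symm, a2, a1, a4, a3, fun a b hab => a5 a b (by tauto)⟩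

theorem drift_up (hm : 2 ≤ m) (hn : 2 ≤ n) {x : ℕ} (hx : x ≤ D) :
    drift (eig hm hn) (tab hm hn hx) ⟨0, by omega⟩ ⟨1, by omega⟩ ⟨0, by omega⟩ ⟨1, by omega⟩ =
      phi D ((x : ℝ) + 1) - phi D x := by
  rcases hx.lt_or_eq with h | h
  · rw [drift_move _ (isMove_up1 hm hn hx h), eig_tab, eig_tab]
    push_cast
    rfl
  · rw [drift_zero]
    · subst h
      rw [phi_top, sub_self]
    · rintro Z ⟨-, -, -, -, h3, -⟩
      subst h
      simp [tab, tabF] at h3

theorem drift_up' (hm : 2 ≤ m) (hn : 2 ≤ n) {x : ℕ} (hx : x ≤ D) :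
    drift (eig hm hn) (tab hm hn hx) ⟨1, by omega⟩ ⟨0, by omega⟩ ⟨1, by omega⟩ ⟨0, by omega⟩ =
      phi D ((x : ℝ) + 1) - phi D x := by
  rcases hx.lt_or_eq with h | h
  · rw [drift_move _ (isMove_flip (isMove_up1 hm hn hx h)), eig_tab, eig_tab]
    push_cast
    rfl
  · rw [drift_zero]
    · subst h
      rw [phi_top, sub_self]
    · rintro Z ⟨-, -, -, -, h3, -⟩
      subst h
      simp [tab, tabF] at h3

theorem drift_down (hm : 2 ≤ m) (hn : 2 ≤ n) {x : ℕ} (hx : x ≤ D) :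
    drift (eig hm hn) (tab hm hn hx) ⟨1, by omega⟩ ⟨0, by omega⟩ ⟨0, by omega⟩ ⟨1, by omega⟩ =
      phi D ((x : ℝ) - 1) - phi D x := by
  rcases x with _ | x
  · rw [drift_zero]
    · simp only [Nat.cast_zero, zero_sub]
      rw [phi_bot, sub_self]
    · rintro Z ⟨-, -, -, -, h3, -⟩
      simp [tab, tabF] at h3
  · have hx0 : x ≤ D := by omega
    rw [drift_move _ (isMove_up1 hm hn hx0 hx).swap, eig_tab, eig_tab]
    push_cast
    rw [add_sub_cancel_right]

theorem drift_down' (hm : 2 ≤ m) (hn : 2 ≤ n) {x : ℕ} (hx : x ≤ D) :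
    drift (eig hm hn) (tab hm hn hx) ⟨0, by omega⟩ ⟨1, by omega⟩ ⟨1, by omega⟩ ⟨0, by omega⟩ =
      phi D ((x : ℝ) - 1) - phi D x := by
  rcases x with _ | x
  · rw [drift_zero]
    · simp only [Nat.cast_zero, zero_sub]
      rw [phi_bot, sub_self]
    · rintro Z ⟨-, -, -, -, h3, -⟩
      simp [tab, tabF] at h3
  · have hx0 : x ≤ D := by omega
    rw [drift_move _ (isMove_flip (isMove_up1 hm hn hx0 hx)).swap, eig_tab, eig_tab]
    push_cast
    rw [add_sub_cancel_right]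

theorem drift_eq_zero (F : Tables (mg D m) (mg D n) → ℝ) (X : Tables (mg D m) (mg D n))
    {i i' : Fin m} {j k : Fin n}
    (h : 2 ≤ (i : ℕ) ∨ 2 ≤ (i' : ℕ) ∨ 2 ≤ (j : ℕ) ∨ 2 ≤ (k : ℕ) ∨ i = i' ∨ j = k) :
    drift F X i i' j k = 0 := by
  apply drift_zero
  rintro Z ⟨hi, hj, h1, h2, h3, h4, -⟩
  rcases h with h | h | h | h | h | h
  · rw [entry_zero_row Z h] at h1; omega
  · rw [entry_zero_row Z h] at h2; omega
  · rw [entry_zero_col Z i h] at h1; omega
  · rw [entry_zero_col Z i' h] at h2; omega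
  · exact hi h
  · exact hj h

theorem sum_drift (hm : 2 ≤ m) (hn : 2 ≤ n) {x : ℕ} (hx : x ≤ D) :
    ∑ i : Fin m, ∑ i' : Fin m, ∑ j : Fin n, ∑ k : Fin n,
      drift (eig hm hn) (tab hm hn hx) i i' j k =
      -(4 * (1 - Real.cos (Real.pi / (D + 1)))) * phi D x := by
  have hk : ∀ (i i' : Fin m) (j : Fin n), ∑ k : Fin n, drift (eig hm hn) (tab hm hn hx) i i' j k =
      drift (eig hm hn) (tab hm hn hx) i i' j ⟨0, by omega⟩ +
      drift (eig hm hn) (tab hm hn hx) i i' j ⟨1, by omega⟩ := fun i i' j =>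
    sum_fin_two' hn _ fun k hk => drift_eq_zero _ _ (by tauto)
  simp only [hk]
  rw [sum_fin_two' hm _ fun i hi => Finset.sum_eq_zero fun i' _ => Finset.sum_eq_zero fun j _ => by
    rw [drift_eq_zero _ _ (by tauto), drift_eq_zero _ _ (by tauto), add_zero]]
  rw [sum_fin_two' hm _ fun i' hi => Finset.sum_eq_zero fun j _ => by
    rw [drift_eq_zero _ _ (by tauto), drift_eq_zero _ _ (by tauto), add_zero]]
  rw [sum_fin_two' hm _ fun i' hi => Finset.sum_eq_zero fun j _ => by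
    rw [drift_eq_zero _ _ (by tauto), drift_eq_zero _ _ (by tauto), add_zero]]
  have hj : ∀ i i' : Fin m, ∑ j : Fin n, (drift (eig hm hn) (tab hm hn hx) i i' j ⟨0, by omega⟩ +
      drift (eig hm hn) (tab hm hn hx) i i' j ⟨1, by omega⟩) =
      (drift (eig hm hn) (tab hm hn hx) i i' ⟨0, by omega⟩ ⟨0, by omega⟩ +
      drift (eig hm hn) (tab hm hn hx) i i' ⟨0, by omega⟩ ⟨1, by omega⟩) +
      (drift (eig hm hn) (tab hm hn hx) i i' ⟨1, by omega⟩ ⟨0, by omega⟩ +
      drift (eig hm hn) (tab hm hn hx) i i' ⟨1, by omega⟩ ⟨1, by omega⟩) := fun i i' =>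
    sum_fin_two' hn _ fun j hj => by
      rw [drift_eq_zero _ _ (by tauto), drift_eq_zero _ _ (by tauto), add_zero]
  simp only [hj]
  have z : ∀ (i i' : Fin m) (j k : Fin n), (i = i' ∨ j = k) →
      drift (eig hm hn) (tab hm hn hx) i i' j k = 0 := fun i i' j k h =>
    drift_eq_zero _ _ (by tauto)
  simp only [z _ _ _ _ (Or.inl rfl), z _ _ _ _ (Or.inr rfl), drift_up, drift_up', drift_down,
    drift_down']
  have := phi_add (D := D) (x : ℝ)
  linear_combination 2 * this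

theorem eig_eq (hm : 2 ≤ m) (hn : 2 ≤ n) (X : Tables (mg D m) (mg D n)) :
    ∑ Y, ker (mg D m) (mg D n) X Y * eig hm hn Y = (1 - dgGap m n D) * eig hm hn X := by
  obtain ⟨x, hx, rfl⟩ := exists_tab hm hn X
  rw [ker_drift hm hn, sum_drift, eig_tab]
  unfold dgGap
  have := gap_pos_aux hm hn
  field_simp
  ring

theorem dgGap_pos (hm : 2 ≤ m) (hn : 2 ≤ n) (D : ℕ) : 0 < dgGap m n D := by
  have h := dgGap_ge hm hn D
  have hmn := gap_pos_aux hm hn
  have : 0 < 4 / ((m : ℝ) ^ 2 * (n : ℝ) ^ 2 * ((D : ℝ) + 1) ^ 2) := by positivity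
  linarith

theorem eig_ne_zero (hm : 2 ≤ m) (hn : 2 ≤ n) (hD : 1 ≤ D) :
    eig hm hn (tab hm hn (Nat.zero_le D)) ≠ 0 := by
  rw [eig_tab]
  unfold phi
  have hD' : (1 : ℝ) ≤ D := by exact_mod_cast hD
  apply ne_of_gt
  apply Real.cos_pos_of_mem_Ioo
  constructor
  · have : 0 < Real.pi / ((D : ℝ) + 1) * (((0 : ℕ) : ℝ) + 1 / 2) := by
      have := Real.pi_pos
      positivity
    linarith [Real.pi_pos]
  · have h1 : Real.pi / ((D : ℝ) + 1) < Real.pi := by
      apply div_lt_self Real.pi_pos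
      linarith
    simp only [Nat.cast_zero, zero_add]
    linarith

theorem eig_sum (hm : 2 ≤ m) (hn : 2 ≤ n) :
    ∑ X : Tables (mg D m) (mg D n), eig hm hn X = 0 := by
  have h : ∑ X : Tables (mg D m) (mg D n), ∑ Y, ker (mg D m) (mg D n) X Y * eig hm hn Y =
      ∑ Y : Tables (mg D m) (mg D n), eig hm hn Y := by
    rw [Finset.sum_comm]
    refine Finset.sum_congr rfl fun Y _ => ?_
    rw [← Finset.sum_mul]
    have : ∑ X : Tables (mg D m) (mg D n), ker (mg D m) (mg D n) X Y = 1 := by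
      rw [← ker_row (mg D m) (mg D n) hm hn Y]
      exact Finset.sum_congr rfl fun X _ => ker_symm _ _ X Y
    rw [this, one_mul]
  simp only [eig_eq hm hn] at h
  rw [← Finset.mul_sum] at h
  have hg := dgGap_pos hm hn D
  have : dgGap m n D * ∑ X : Tables (mg D m) (mg D n), eig hm hn X = 0 := by linarith
  rcases mul_eq_zero.1 this with h1 | h1
  · exact absurd h1 hg.ne'
  · exact h1

end Block

end Vale.Agent.P328.H659
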